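import Vale.Agent.P247.H74.Sta
import Vale.Agent.P116.FK.Pom

/-!
# P247, package K2H: the local gradient estimate

`u` is `J`-holomorphic; at the point `0` the frame change `Φ (x) = (1 - J₀ J (x)) / 2` turns the
derivative `u_x` into a function whose `∂̄` is bounded by `C |u_x|²`.  The Cauchy-Pompeiu formula
then gives `|u_x (0)| ≤ C (δ + M²)` when `|u_x| ≤ M` on the unit disc and the energy is at most
`δ²`.
-/

open scoped ContDiff Topology
open Set MeasureTheory Filter Metric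

noncomputable section

namespace Vale.Agent.P247.H74.K2H

/-! ## Bounds for periodic functions -/

theorem bdd_of_per {E : Type*} [NormedAddCommGroup E] {g : R4 → E} (hg : Continuous g)
    (hp : ∀ (n : Fin 4 → ℤ) (x : R4), g (fun i => x i + n i) = g x) :
    ∃ B : ℝ, ∀ x, ‖g x‖ ≤ B := by
  obtain ⟨B, hB⟩ := (isCompact_Icc (a := (0 : R4)) (b := 1)).exists_bound_of_continuousOn
    hg.continuousOn
  refine ⟨B, fun x => ?_⟩
  have h1 := hp (fun i => -⌊x i⌋) x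
  rw [← h1]
  refine hB _ ⟨fun i => ?_, fun i => ?_⟩
  · have := Int.floor_le (x i)
    push_cast
    simp only [Pi.zero_apply]
    linarith
  · have := (Int.lt_floor_add_one (x i)).le
    push_cast
    simp only [Pi.one_apply]
    linarith

theorem fderiv_per {E : Type*} [NormedAddCommGroup E] [NormedSpace ℝ E] {g : R4 → E}
    (hp : ∀ (n : Fin 4 → ℤ) (x : R4), g (fun i => x i + n i) = g x) (n : Fin 4 → ℤ) (x : R4) :
    fderiv ℝ g (fun i => x i + n i) = fderiv ℝ g x := by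
  have h1 : (fun x : R4 => g (x + fun i => (n i : ℝ))) = g := by
    funext x
    exact hp n x
  have h2 := fderiv_comp_add_right (𝕜 := ℝ) (f := g) (x := x) (fun i => (n i : ℝ))
  rw [h1] at h2
  exact h2.symm

theorem exists_bound (D : Data) : ∃ B : ℝ, 1 ≤ B ∧ ∀ x, ‖D.J x‖ ≤ B ∧ ‖fderiv ℝ D.J x‖ ≤ B := by
  obtain ⟨B₁, h₁⟩ := bdd_of_per D.J_smooth.continuous D.J_per
  obtain ⟨B₂, h₂⟩ := bdd_of_per (g := fderiv ℝ D.J)
    (D.J_smooth.continuous_fderiv (by simp)) (fderiv_per D.J_per)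
  exact ⟨max 1 (max B₁ B₂), le_max_left _ _, fun x =>
    ⟨(h₁ x).trans ((le_max_left _ _).trans (le_max_right _ _)),
      (h₂ x).trans ((le_max_right _ _).trans (le_max_right _ _))⟩⟩

/-! ## The frame -/

/-- the complex coordinates of `a` for the complex structure `J₀` -/
def ell (J₀ : R4 →L[ℝ] R4) (i : Fin 4) : R4 →L[ℝ] ℂ :=
  Complex.ofRealCLM.comp (ContinuousLinearMap.proj i) -
    (Complex.I • Complex.ofRealCLM.comp ((ContinuousLinearMap.proj i).comp J₀))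

theorem ell_apply (J₀ : R4 →L[ℝ] R4) (i : Fin 4) (a : R4) :
    ell J₀ i a = (a i : ℂ) - Complex.I * (J₀ a i : ℂ) := by
  simp [ell]

theorem ell_J (J₀ : R4 →L[ℝ] R4) (hJ : ∀ a, J₀ (J₀ a) = -a) (i : Fin 4) (a : R4) :
    ell J₀ i (J₀ a) = Complex.I * ell J₀ i a := by
  rw [ell_apply, ell_apply, hJ, mul_sub, ← mul_assoc, Complex.I_mul_I]
  simp only [Pi.neg_apply]
  push_cast
  ring

theorem norm_ell_le (J₀ : R4 →L[ℝ] R4) {B : ℝ} (hB : ‖J₀‖ ≤ B) (i : Fin 4) (a : R4) :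
    ‖ell J₀ i a‖ ≤ (1 + B) * ‖a‖ := by
  rw [ell_apply]
  have h1 : ‖(a i : ℂ)‖ ≤ ‖a‖ := by
    rw [Complex.norm_real]
    exact norm_le_pi_norm a i
  have h2 : ‖Complex.I * (J₀ a i : ℂ)‖ ≤ B * ‖a‖ := by
    rw [norm_mul, Complex.norm_I, one_mul, Complex.norm_real]
    exact (norm_le_pi_norm (J₀ a) i).trans ((J₀.le_opNorm a).trans
      (mul_le_mul_of_nonneg_right hB (norm_nonneg a)))
  calc _ ≤ ‖(a i : ℂ)‖ + ‖Complex.I * (J₀ a i : ℂ)‖ := norm_sub_le _ _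
    _ ≤ _ := by linarith

/-- the frame change -/
def Phi (D : Data) (J₀ : R4 →L[ℝ] R4) (x : R4) : R4 →L[ℝ] R4 :=
  (1 / 2 : ℝ) • (ContinuousLinearMap.id ℝ R4 - J₀.comp (D.J x))

theorem Phi_apply (D : Data) (J₀ : R4 →L[ℝ] R4) (x a : R4) :
    Phi D J₀ x a = (1 / 2 : ℝ) • (a - J₀ (D.J x a)) := rfl

theorem Phi_J (D : Data) (J₀ : R4 →L[ℝ] R4) (hJ : ∀ a, J₀ (J₀ a) = -a) (x a : R4) :
    Phi D J₀ x (D.J x a) = J₀ (Phi D J₀ x a) := by
  rw [Phi_apply, Phi_apply, D.J_sq, map_smul, map_sub, hJ]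
  simp only [map_neg, sub_neg_eq_add]
  rw [add_comm]

theorem Phi_self (D : Data) (x₀ a : R4) : Phi D (D.J x₀) x₀ a = a := by
  rw [Phi_apply, D.J_sq, sub_neg_eq_add, ← two_smul ℝ a, smul_smul]
  norm_num

theorem norm_Phi_le (D : Data) {B : ℝ} (hB : 1 ≤ B) (hJ : ∀ x, ‖D.J x‖ ≤ B) (x₀ x a : R4) :
    ‖Phi D (D.J x₀) x a‖ ≤ B ^ 2 * ‖a‖ := by
  rw [Phi_apply, norm_smul]
  have h1 : ‖D.J x₀ (D.J x a)‖ ≤ B * (B * ‖a‖) := by
    refine ((D.J x₀).le_opNorm _).trans ?_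
    have h2 : ‖D.J x a‖ ≤ B * ‖a‖ :=
      ((D.J x).le_opNorm a).trans (mul_le_mul_of_nonneg_right (hJ x) (norm_nonneg a))
    exact mul_le_mul (hJ x₀) h2 (norm_nonneg _) (by linarith)
  have h3 : ‖a - D.J x₀ (D.J x a)‖ ≤ ‖a‖ + B * (B * ‖a‖) := (norm_sub_le _ _).trans (by linarith)
  have h4 : ‖a‖ ≤ B ^ 2 * ‖a‖ := by
    nlinarith [norm_nonneg a, mul_nonneg (norm_nonneg a) (by nlinarith : (0 : ℝ) ≤ B ^ 2 - 1)]
  rw [Real.norm_eq_abs, abs_of_pos (by norm_num : (0 : ℝ) < 1 / 2)]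
  nlinarith

theorem hasFDerivAt_Phi (D : Data) (J₀ : R4 →L[ℝ] R4) (x : R4) :
    HasFDerivAt (Phi D J₀)
      ((1 / 2 : ℝ) • (-((ContinuousLinearMap.compL ℝ R4 R4 R4 J₀).comp (fderiv ℝ D.J x)))) x := by
  have h1 : HasFDerivAt D.J (fderiv ℝ D.J x) x :=
    (D.J_smooth.differentiable (by simp) x).hasFDerivAt
  have h2 : HasFDerivAt (fun x => J₀.comp (D.J x))
      ((ContinuousLinearMap.compL ℝ R4 R4 R4 J₀).comp (fderiv ℝ D.J x)) x :=
    ((ContinuousLinearMap.compL ℝ R4 R4 R4 J₀).hasFDerivAt).comp x h1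
  exact (h2.const_sub (ContinuousLinearMap.id ℝ R4)).const_smul (1 / 2 : ℝ)

theorem contDiff_Phi (D : Data) (J₀ : R4 →L[ℝ] R4) : ContDiff ℝ ∞ (Phi D J₀) := by
  unfold Phi
  exact (contDiff_const.sub (contDiff_const.clm_comp D.J_smooth)).const_smul _

end Vale.Agent.P247.H74.K2H
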