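import Vale.Agent.P247.H74.K2H.LemA

/-! # P247, package K2H: the gradient bound -/

open scoped ContDiff Topology Pointwise
open Set MeasureTheory Filter Metric

noncomputable section

namespace Vale.Agent.P247.H74.K2H

/-! ## Rescaling -/

/-- the rescaled map -/
def sc (u : ℂ → R4) (w : ℂ) (s : ℝ) (z : ℂ) : R4 := u (s • z + w)

theorem fderiv_sc {u : ℂ → R4} (hu : ContDiff ℝ ∞ u) (w : ℂ) (s : ℝ) (z h : ℂ) :
    fderiv ℝ (sc u w s) z h = s • fderiv ℝ u (s • z + w) h := by
  have h1 : HasFDerivAt (fun z : ℂ => s • z + w) (s • ContinuousLinearMap.id ℝ ℂ) z :=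
    ((hasFDerivAt_id z).const_smul s).add_const w
  have h2 : HasFDerivAt (sc u w s) _ z :=
    ((hu.differentiable (by simp) (s • z + w)).hasFDerivAt).comp z h1
  rw [h2.fderiv]
  simp

theorem JH_sc {D : Data} {u : ℂ → R4} (hu : JH D u) (w : ℂ) (s : ℝ) : JH D (sc u w s) := by
  refine ⟨hu.1.comp ((contDiff_id.const_smul s).add contDiff_const), fun z => ?_⟩
  rw [fderiv_sc hu.1, fderiv_sc hu.1, hu.2, map_smul]
  rfl

theorem Ux_sc {u : ℂ → R4} (hu : ContDiff ℝ ∞ u) (w : ℂ) (s : ℝ) (z : ℂ) :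
    Ux (sc u w s) z = s • Ux u (s • z + w) := fderiv_sc hu w s z 1

theorem energy_sc {u : ℂ → R4} (hu : ContDiff ℝ ∞ u) (w : ℂ) {s : ℝ} (hs : 0 < s) :
    ∫ z in closedBall (0 : ℂ) 1, ‖Ux (sc u w s) z‖ ^ 2 =
      ∫ z in closedBall w s, ‖Ux u z‖ ^ 2 := by
  have h1 : ∀ z, ‖Ux (sc u w s) z‖ ^ 2 = s ^ 2 * ‖Ux u (s • z + w)‖ ^ 2 := by
    intro z
    rw [Ux_sc hu, norm_smul, mul_pow, Real.norm_eq_abs, sq_abs]
  simp_rw [h1]
  rw [integral_const_mul]
  have h2 := Measure.setIntegral_comp_smul_of_pos (μ := (volume : Measure ℂ))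
    (fun z => ‖Ux u (z + w)‖ ^ 2) (closedBall (0 : ℂ) 1) hs
  rw [h2, Complex.finrank_real_complex, smul_eq_mul, ← mul_assoc,
    mul_inv_cancel₀ (by positivity), one_mul]
  have h3 : s • closedBall (0 : ℂ) 1 = closedBall (0 : ℂ) s := by
    rw [smul_closedBall s (0 : ℂ) (by norm_num), smul_zero, Real.norm_eq_abs, abs_of_pos hs,
      mul_one]
  rw [h3, ← integral_indicator measurableSet_closedBall,
    ← integral_indicator measurableSet_closedBall,
    ← integral_sub_right_eq_self _ w]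
  refine integral_congr_ae (Eventually.of_forall fun z => ?_)
  simp only [indicator, mem_closedBall, sub_add_cancel, dist_eq_norm, sub_zero]

/-! ## K2h -/

theorem K2h : K2h_statement := by
  intro D
  obtain ⟨C₀, hC₀, hA⟩ := lemA D
  have hC₀p : 0 < C₀ := by linarith
  -- `δ₀ < 1 / (16 C₀²)`
  set δ₀ : ℝ := 1 / (32 * C₀ ^ 2) with hδ₀
  have hδ₀p : 0 < δ₀ := by positivity
  refine ⟨δ₀ ^ 2, by positivity, 1 / (4 * C₀), by positivity, ?_⟩
  intro u hu z ρ hρ _ hE
  have hUc : Continuous (Ux u) := (contDiff_Ux hu.1).continuous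
  -- the maximum of `(ρ - |w - z|) |u_x (w)|`
  obtain ⟨w₀, hw₀, hmax⟩ := (isCompact_closedBall z ρ).exists_isMaxOn
    ⟨z, mem_closedBall_self hρ.le⟩
    (f := fun w => (ρ - dist w z) * ‖Ux u w‖)
    (((continuous_const.sub (continuous_id.dist continuous_const)).mul hUc.norm).continuousOn)
  have hmax' : ∀ w ∈ closedBall z ρ,
      (ρ - dist w z) * ‖Ux u w‖ ≤ (ρ - dist w₀ z) * ‖Ux u w₀‖ := fun w hw => hmax hw
  rw [mem_closedBall] at hw₀
  set c := ‖Ux u w₀‖ with hc
  set d := (ρ - dist w₀ z) / 2 with hd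
  have hd0 : 0 ≤ d := by rw [hd]; linarith
  have hc0 : 0 ≤ c := norm_nonneg _
  have hz : ρ * ‖Ux u z‖ ≤ 2 * (d * c) := by
    have h1 := hmax' z (mem_closedBall_self hρ.le)
    rw [dist_self, sub_zero] at h1
    refine h1.trans (le_of_eq ?_)
    rw [hd]
    ring
  have hbound : ∀ w ∈ closedBall w₀ d, 0 < d → ‖Ux u w‖ ≤ 2 * c := by
    intro w hw hdp
    rw [mem_closedBall] at hw
    have h1 : dist w z ≤ dist w w₀ + dist w₀ z := dist_triangle _ _ _
    have h2 : d ≤ ρ - dist w z := by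
      have : ρ - dist w₀ z = 2 * d := by rw [hd]; ring
      linarith
    have h3 := hmax' w (by rw [mem_closedBall]; linarith)
    have h4 : ρ - dist w₀ z = 2 * d := by rw [hd]; ring
    rw [h4] at h3
    have h5 : d * ‖Ux u w‖ ≤ 2 * d * c :=
      (mul_le_mul_of_nonneg_right h2 (norm_nonneg _)).trans h3
    have h6 : d * ‖Ux u w‖ ≤ d * (2 * c) := by linarith
    exact le_of_mul_le_mul_left h6 hdp
  -- the main estimate
  have hmain : ∀ s, 0 < s → s ≤ d → s * c ≤ C₀ * (δ₀ + 4 * (s * c) ^ 2) := by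
    intro s hs hsd
    have hball : closedBall w₀ s ⊆ closedBall z ρ := by
      refine closedBall_subset_closedBall' ?_
      have : ρ - dist w₀ z = 2 * d := by rw [hd]; ring
      linarith
    have h1 : ∫ w in closedBall (0 : ℂ) 1, ‖Ux (sc u w₀ s) w‖ ^ 2 ≤ δ₀ ^ 2 := by
      rw [energy_sc hu.1 w₀ hs]
      refine le_trans ?_ hE
      refine setIntegral_mono_set ?_ (Eventually.of_forall fun w => by positivity)
        hball.eventuallyLE
      exact ((hUc.norm.pow 2).continuousOn).integrableOn_compact (isCompact_closedBall _ _)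
    have h2 : ∀ w ∈ closedBall (0 : ℂ) 1, ‖Ux (sc u w₀ s) w‖ ≤ 2 * (s * c) := by
      intro w hw
      rw [Ux_sc hu.1, norm_smul, Real.norm_eq_abs, abs_of_pos hs]
      have h3 : s • w + w₀ ∈ closedBall w₀ d := by
        rw [mem_closedBall, dist_eq_norm, add_sub_cancel_right, norm_smul, Real.norm_eq_abs,
          abs_of_pos hs]
        rw [mem_closedBall_zero_iff] at hw
        nlinarith
      have h4 := hbound _ h3 (by linarith)
      nlinarith
    have h3 := hA (sc u w₀ s) (2 * (s * c)) δ₀ (JH_sc hu w₀ s) hδ₀p h2 h1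
    rw [Ux_sc hu.1, smul_zero, zero_add, norm_smul, Real.norm_eq_abs, abs_of_pos hs] at h3
    refine h3.trans (le_of_eq ?_)
    ring
  have hdc : d * c < 1 / (8 * C₀) := by
    by_contra hcon
    rw [not_lt] at hcon
    have hpos : 0 < 1 / (8 * C₀) := by positivity
    have hdp : 0 < d := by
      rcases hd0.lt_or_eq with h | h
      · exact h
      · rw [← h, zero_mul] at hcon
        linarith
    have hcp : 0 < c := by
      rcases hc0.lt_or_eq with h | h
      · exact h
      · rw [← h, mul_zero] at hcon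
        linarith
    have h1 := hmain (1 / (8 * C₀) / c) (by positivity) (by
      rw [div_le_iff₀ hcp]
      exact hcon)
    have h2 : 1 / (8 * C₀) / c * c = 1 / (8 * C₀) := by field_simp
    rw [h2] at h1
    have h3 : C₀ * (δ₀ + 4 * (1 / (8 * C₀)) ^ 2) = 3 / 32 * (1 / C₀) := by
      rw [hδ₀]
      field_simp
      norm_num
    rw [h3] at h1
    have h4 : 1 / (8 * C₀) = 1 / 8 * (1 / C₀) := by
      field_simp
    rw [h4] at h1
    have h5 : 0 < 1 / C₀ := by positivity
    linarith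
  have h6 : ρ * ‖Ux u z‖ ≤ 1 / (4 * C₀) := by
    have : 2 * (1 / (8 * C₀)) = 1 / (4 * C₀) := by
      field_simp
      norm_num
    linarith
  show ‖Ux u z‖ ≤ 1 / (4 * C₀) / ρ
  rw [le_div_iff₀ hρ]
  linarith

/-! ## K2g -/

/-- the inverse of `coord` -/
theorem coord_apply (τ : ℂ) (hτ : 0 < τ.im) (p : P2) :
    coord τ ((p.1 : ℂ) + p.2 * τ) = p := by
  unfold coord
  have h1 : ((p.1 : ℂ) + p.2 * τ).im = p.2 * τ.im := by simp
  have h2 : ((p.1 : ℂ) + p.2 * τ).re = p.1 + p.2 * τ.re := by simp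
  rw [h1, h2]
  have h3 : p.2 * τ.im / τ.im = p.2 := by field_simp
  rw [h3]
  ext
  · simp; ring
  · rfl

/-- `coord τ` as a linear map -/
def coordL (τ : ℂ) : ℂ →L[ℝ] P2 :=
  (Complex.reCLM - (τ.re / τ.im) • Complex.imCLM).prod ((1 / τ.im) • Complex.imCLM)

theorem coordL_apply (τ z : ℂ) : coordL τ z = coord τ z := by
  unfold coordL coord
  ext
  · simp
    ring
  · simp
    ring

theorem hasFDerivAt_up {f : P2 → R4} (hf : ContDiff ℝ ∞ f) (τ z : ℂ) :
    HasFDerivAt (up f τ) ((fderiv ℝ (phi f) (coord τ z)).comp (coordL τ)) z := by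
  have hlin : ContDiff ℝ ∞ lin := by
    unfold lin
    refine contDiff_pi.2 fun i => ?_
    fin_cases i <;> simp <;> fun_prop
  have hphi : ContDiff ℝ ∞ (phi f) := hlin.add hf
  have h1 : HasFDerivAt (fun z => coord τ z) (coordL τ) z := by
    have : (fun z => coord τ z) = coordL τ := by
      funext w
      exact (coordL_apply τ w).symm
    rw [this]
    exact (coordL τ).hasFDerivAt
  exact (hphi.differentiable (by simp) (coord τ z)).hasFDerivAt.comp z h1

theorem contDiff_lin : ContDiff ℝ ∞ lin := by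
  unfold lin
  refine contDiff_pi.2 fun i => ?_
  fin_cases i <;> simp <;> fun_prop

theorem fderiv_up_one {f : P2 → R4} (hf : ContDiff ℝ ∞ f) (τ z : ℂ) :
    fderiv ℝ (up f τ) z 1 = ds (phi f) (coord τ z) := by
  rw [(hasFDerivAt_up hf τ z).fderiv]
  show fderiv ℝ (phi f) (coord τ z) (coordL τ 1) = _
  have : coordL τ 1 = (1, 0) := by
    rw [coordL_apply]
    simp [coord]
  rw [this]
  rfl

theorem fderiv_up_I {f : P2 → R4} (hf : ContDiff ℝ ∞ f) (τ z : ℂ) (hτ : 0 < τ.im) :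
    fderiv ℝ (up f τ) z Complex.I =
      (1 / τ.im) • (dt (phi f) (coord τ z) - τ.re • ds (phi f) (coord τ z)) := by
  rw [(hasFDerivAt_up hf τ z).fderiv]
  show fderiv ℝ (phi f) (coord τ z) (coordL τ Complex.I) = _
  have : coordL τ Complex.I = (1 / τ.im) • (((0 : ℝ), (1 : ℝ)) - τ.re • ((1 : ℝ), (0 : ℝ))) := by
    rw [coordL_apply]
    ext
    · simp [coord]
      field_simp
    · simp [coord]
  rw [this, map_smul, map_sub, map_smul]
  rfl

/-- a `J`-holomorphic torus in the complex coordinate -/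
theorem JH_up {D : Data} {f : P2 → R4} {τ : ℂ} (h : JT D f τ) : JH D (up f τ) := by
  have hτ := h.im_pos
  refine ⟨?_, fun z => ?_⟩
  · have h1 : up f τ = fun z => phi f (coordL τ z) := by
      funext z
      rw [coordL_apply]
      rfl
    rw [h1]
    exact (contDiff_lin.add h.smooth).comp (coordL τ).contDiff
  · rw [fderiv_up_one h.smooth, fderiv_up_I h.smooth τ z hτ, h.eq (coord τ z)]
    rw [add_sub_cancel_left, smul_smul, one_div_mul_cancel hτ.ne', one_smul]
    rfl

theorem K2g (ha : K2a_statement) (hb : K2b_statement) (hh : K2h_statement) : K2g_statement := by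
  intro D
  obtain ⟨C₁, hC₁, ha⟩ := ha D
  obtain ⟨ε, hε, C₂, hC₂, hh⟩ := hh D
  obtain ⟨ρ, hρ, hb⟩ := hb D ε hε
  obtain ⟨B, hB, hJ⟩ := exists_bound D
  set r := min ρ 1 with hr
  have hr0 : 0 < r := lt_min hρ one_pos
  refine ⟨max (C₂ / r) (C₁ * (C₂ / r) + C₁ * (B * (C₂ / r))), lt_max_of_lt_left (by positivity),
    fun f τ hf p => ?_⟩
  obtain ⟨h1, h2, -⟩ := ha f τ hf
  have hτ := hf.im_pos
  set z : ℂ := (p.1 : ℂ) + p.2 * τ with hz
  have hcz : coord τ z = p := coord_apply τ hτ p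
  have hE : ∫ w in closedBall z r, ‖fderiv ℝ (up f τ) w 1‖ ^ 2 ≤ ε := by
    refine le_trans ?_ (hb f τ hf z)
    refine setIntegral_mono_set ?_ (Eventually.of_forall fun w => by positivity)
      (closedBall_subset_closedBall (min_le_left _ _)).eventuallyLE
    have hc : Continuous fun w => ‖fderiv ℝ (up f τ) w 1‖ ^ 2 :=
      ((contDiff_Ux (JH_up hf).1).continuous.norm.pow 2)
    exact hc.continuousOn.integrableOn_compact (isCompact_closedBall _ _)
  have h3 := hh (up f τ) (JH_up hf) z r hr0 (min_le_right _ _) hE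
  rw [fderiv_up_one hf.smooth, hcz] at h3
  refine ⟨h3.trans (le_max_left _ _), ?_⟩
  refine le_trans ?_ (le_max_right _ _)
  rw [hf.eq p]
  refine (norm_add_le _ _).trans ?_
  rw [norm_smul, norm_smul, Real.norm_eq_abs, Real.norm_eq_abs]
  have h4 : |τ.re| ≤ C₁ := (Complex.abs_re_le_norm τ).trans h2
  have h5 : |τ.im| ≤ C₁ := (Complex.abs_im_le_norm τ).trans h2
  have h6 : ‖D.J (phi f p) (ds (phi f) p)‖ ≤ B * (C₂ / r) :=
    ((D.J (phi f p)).le_opNorm _).trans (mul_le_mul (hJ _).1 h3 (norm_nonneg _) (by linarith))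
  refine add_le_add ?_ ?_
  · exact mul_le_mul h4 h3 (norm_nonneg _) hC₁.le
  · exact mul_le_mul h5 h6 (norm_nonneg _) hC₁.le

end Vale.Agent.P247.H74.K2H
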