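import Vale.Agent.P247.H74.K2H.Loc2

/-! # P247, package K2H: the estimate at the centre of the unit disc -/

open scoped ContDiff Topology
open Set MeasureTheory Filter Metric

noncomputable section

namespace Vale.Agent.P247.H74.K2H

open P116.FK (db)

theorem integrableOn_inv_ball (R : ℝ) : IntegrableOn (fun z : ℂ => ‖z‖⁻¹) (ball (0 : ℂ) R) := by
  rw [integrableOn_fun_norm_addHaar (volume : Measure ℂ) (f := fun r : ℝ => r⁻¹)]
  rw [Complex.finrank_real_complex]
  have : IntegrableOn (fun _ : ℝ => (1 : ℝ)) (Set.Ioo 0 R) := by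
    simp
  refine this.congr_fun ?_ measurableSet_Ioo
  intro r hr
  have : r ≠ 0 := ne_of_gt hr.1
  simp only [smul_eq_mul]
  rw [show 2 - 1 = 1 from rfl, pow_one, mul_inv_cancel₀ this]

/-- the cutoff -/
def bmp : ContDiffBump (0 : ℂ) := ⟨1 / 2, 1, by norm_num, by norm_num⟩

/-- the cutoff as a complex valued function -/
def chi (z : ℂ) : ℂ := ((bmp z : ℝ) : ℂ)

theorem contDiff_chi : ContDiff ℝ ∞ chi :=
  Complex.ofRealCLM.contDiff.comp bmp.contDiff

theorem chi_one {z : ℂ} (hz : z ∈ closedBall (0 : ℂ) (1 / 2)) : chi z = 1 := by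
  unfold chi
  rw [bmp.one_of_mem_closedBall hz]
  simp

theorem norm_chi_le (z : ℂ) : ‖chi z‖ ≤ 1 := by
  unfold chi
  rw [Complex.norm_real, Real.norm_eq_abs, abs_of_nonneg (bmp.nonneg)]
  exact bmp.le_one

theorem chi_zero {z : ℂ} (hz : z ∉ ball (0 : ℂ) 1) : chi z = 0 := by
  unfold chi
  rw [bmp.zero_of_le_dist]
  · simp
  · rw [mem_ball, not_lt] at hz
    exact hz

theorem hasCompactSupport_chi : HasCompactSupport chi := by
  refine HasCompactSupport.intro (isCompact_closedBall (0 : ℂ) 1) fun z hz => chi_zero fun h => ?_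
  exact hz (ball_subset_closedBall h)

theorem db_chi_zero {z : ℂ} (hz : z ∈ ball (0 : ℂ) (1 / 2)) : db chi z = 0 := by
  have h1 : chi =ᶠ[𝓝 z] fun _ => 1 := by
    filter_upwards [isOpen_ball.mem_nhds hz] with w hw
    exact chi_one (ball_subset_closedBall hw)
  unfold db
  rw [h1.fderiv_eq]
  simp

theorem continuous_db {η : ℂ → ℂ} (h : ContDiff ℝ 1 η) : Continuous (db η) := by
  have h1 : Continuous (fderiv ℝ η) := h.continuous_fderiv (by simp)
  unfold db
  exact ((h1.clm_apply continuous_const).add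
    (continuous_const.mul (h1.clm_apply continuous_const)))

theorem exists_db_chi_bound : ∃ K : ℝ, 0 ≤ K ∧ ∀ z, ‖z‖⁻¹ * ‖db chi z‖ ≤ K := by
  have hc : Continuous (db chi) := continuous_db (contDiff_chi.of_le (by simp))
  have hs : HasCompactSupport (db chi) := by
    refine hasCompactSupport_chi.mono' fun z hz => ?_
    by_contra h
    have h1 : chi =ᶠ[𝓝 z] fun _ => 0 := notMem_tsupport_iff_eventuallyEq.1 h
    apply hz
    unfold db
    rw [h1.fderiv_eq]
    simp
  obtain ⟨K, hK⟩ := hc.bounded_above_of_compact_support hs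
  have hK0 : 0 ≤ K := (norm_nonneg _).trans (hK 0)
  refine ⟨2 * K, by linarith, fun z => ?_⟩
  by_cases hz : z ∈ ball (0 : ℂ) (1 / 2)
  · rw [db_chi_zero hz]
    simp [hK0]
  · rw [mem_ball_zero_iff, not_lt] at hz
    have h1 : ‖z‖⁻¹ ≤ 2 := by
      rw [inv_le_comm₀ (by linarith) (by norm_num)]
      norm_num at hz ⊢
      linarith
    exact mul_le_mul h1 (hK z) (norm_nonneg _) (by norm_num)

theorem db_mul {η ψ : ℂ → ℂ} {z : ℂ} (hη : DifferentiableAt ℝ η z)
    (hψ : DifferentiableAt ℝ ψ z) :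
    db (fun w => η w * ψ w) z = η z * db ψ z + ψ z * db η z := by
  unfold db
  rw [fderiv_fun_mul hη hψ]
  simp only [_root_.add_apply, _root_.smul_apply, smul_eq_mul]
  ring

/-- the estimate for one function -/
theorem pompeiu_bound : ∃ K : ℝ, 0 ≤ K ∧ ∀ (v : ℂ → ℂ) (A b : ℝ) (g : ℂ → ℝ), ContDiff ℝ 1 v →
    Continuous g → (∀ z ∈ ball (0 : ℂ) 1, ‖db v z‖ ≤ A) → (∀ z ∈ ball (0 : ℂ) 1, ‖v z‖ ≤ g z) →
    ∫ z in ball (0 : ℂ) 1, g z ≤ b → ‖v 0‖ ≤ K * (A + b) := by
  obtain ⟨K₁, hK₁, hK⟩ := exists_db_chi_bound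
  set K₀ : ℝ := ∫ z in ball (0 : ℂ) 1, ‖z‖⁻¹ with hK₀
  have hK₀0 : 0 ≤ K₀ := setIntegral_nonneg measurableSet_ball fun z _ => by positivity
  refine ⟨K₀ + K₁, by linarith, fun v A b g hv hg hA hvg hb => ?_⟩
  have hA0 : 0 ≤ A := (norm_nonneg _).trans (hA 0 (by simp))
  have hg0 : ∀ z ∈ ball (0 : ℂ) 1, 0 ≤ g z := fun z hz => (norm_nonneg _).trans (hvg z hz)
  have hb0 : 0 ≤ b := (setIntegral_nonneg measurableSet_ball hg0).trans hb
  set ψ : ℂ → ℂ := fun w => chi w * v w with hψ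
  have hψ1 : ContDiff ℝ 1 ψ := (contDiff_chi.of_le (by simp)).mul hv
  have hψs : HasCompactSupport ψ := hasCompactSupport_chi.mul_right
  have hp := P116.FK.pompeiu hψ1 hψs
  have hψ0 : ψ 0 = v 0 := by
    rw [hψ]
    simp only
    rw [chi_one (by simp), one_mul]
  rw [hψ0] at hp
  have hsupp : ∀ z ∉ ball (0 : ℂ) 1, z⁻¹ * db ψ z = 0 := by
    intro z hz
    have h1 : db ψ z = 0 := by
      rw [hψ, db_mul ((contDiff_chi.differentiable (by simp)) z) (hv.differentiable (by simp) z),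
        chi_zero hz, zero_mul, zero_add]
      have : db chi z = 0 := by
        -- `chi` is nonnegative real and has a minimum at `z`
        have hmin : IsLocalMin (fun w => bmp w) z := by
          refine Filter.Eventually.of_forall fun w => ?_
          have h2 : (bmp z : ℝ) = 0 := by
            have := chi_zero hz
            unfold chi at this
            exact_mod_cast this
          simp only [h2]
          exact bmp.nonneg
        have h3 := hmin.fderiv_eq_zero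
        have h4 : fderiv ℝ chi z = Complex.ofRealCLM.comp (fderiv ℝ (fun w => bmp w) z) :=
          ((Complex.ofRealCLM.hasFDerivAt).comp z
            ((bmp.contDiff (n := 1)).differentiable (by simp) z).hasFDerivAt).fderiv
        unfold db
        rw [h4, h3]
        simp
      rw [this, mul_zero]
    rw [h1, mul_zero]
  have hle : ‖∫ w : ℂ, w⁻¹ * db ψ w‖ ≤ K₀ * A + K₁ * b := by
    rw [← setIntegral_eq_integral_of_forall_compl_eq_zero hsupp]
    have hint : IntegrableOn (fun z : ℂ => ‖z‖⁻¹ * A + K₁ * g z) (ball (0 : ℂ) 1) := by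
      refine ((integrableOn_inv_ball 1).mul_const A).add ?_
      exact ((hg.continuousOn.integrableOn_compact
        (isCompact_closedBall (0 : ℂ) 1)).mono_set ball_subset_closedBall).const_mul K₁
    refine (norm_integral_le_of_norm_le hint ?_).trans ?_
    · filter_upwards [ae_restrict_mem measurableSet_ball] with z hz
      rw [hψ, db_mul ((contDiff_chi.differentiable (by simp)) z) (hv.differentiable (by simp) z),
        norm_mul, norm_inv]
      have h1 : ‖chi z * db v z + v z * db chi z‖ ≤ A + g z * ‖db chi z‖ := by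
        refine (norm_add_le _ _).trans ?_
        rw [norm_mul, norm_mul]
        refine add_le_add ?_ (mul_le_mul_of_nonneg_right (hvg z hz) (norm_nonneg _))
        calc ‖chi z‖ * ‖db v z‖ ≤ 1 * ‖db v z‖ :=
              mul_le_mul_of_nonneg_right (norm_chi_le z) (norm_nonneg _)
          _ ≤ A := by rw [one_mul]; exact hA z hz
      calc ‖z‖⁻¹ * ‖chi z * db v z + v z * db chi z‖ ≤ ‖z‖⁻¹ * (A + g z * ‖db chi z‖) :=
            mul_le_mul_of_nonneg_left h1 (by positivity)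
        _ = ‖z‖⁻¹ * A + g z * (‖z‖⁻¹ * ‖db chi z‖) := by ring
        _ ≤ ‖z‖⁻¹ * A + g z * K₁ := by
            have := mul_le_mul_of_nonneg_left (hK z) (hg0 z hz)
            linarith
        _ = ‖z‖⁻¹ * A + K₁ * g z := by ring
    · rw [integral_add ((integrableOn_inv_ball 1).mul_const A)
        (((hg.continuousOn.integrableOn_compact
        (isCompact_closedBall (0 : ℂ) 1)).mono_set ball_subset_closedBall).const_mul K₁),
        integral_mul_const, integral_const_mul]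
      have := mul_le_mul_of_nonneg_left hb hK₁
      linarith
  rw [hp, norm_mul] at hle
  have h2π : ‖(-(2 * (Real.pi : ℂ)))‖ = 2 * Real.pi := by
    rw [norm_neg, norm_mul, Complex.norm_real, Real.norm_eq_abs, abs_of_pos Real.pi_pos]
    simp
  rw [h2π] at hle
  have h3 : ‖v 0‖ ≤ 2 * Real.pi * ‖v 0‖ := by
    nlinarith [norm_nonneg (v 0), Real.pi_gt_three]
  have h4 : K₀ * A + K₁ * b ≤ (K₀ + K₁) * (A + b) := by
    nlinarith [mul_nonneg hK₀0 hb0, mul_nonneg hK₁ hA0]
  linarith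

/-- **Lemma A** -/
theorem lemA (D : Data) : ∃ C₀ : ℝ, 1 ≤ C₀ ∧ ∀ (u : ℂ → R4) (M δ : ℝ), JH D u → 0 < δ →
    (∀ w ∈ closedBall (0 : ℂ) 1, ‖Ux u w‖ ≤ M) →
    ∫ w in closedBall (0 : ℂ) 1, ‖Ux u w‖ ^ 2 ≤ δ ^ 2 → ‖Ux u 0‖ ≤ C₀ * (δ + M ^ 2) := by
  obtain ⟨B, hB, hJ⟩ := exists_bound D
  obtain ⟨K, hK0, hK⟩ := pompeiu_bound
  have hB0 : 0 ≤ B := by linarith
  refine ⟨1 + K * (8 * B ^ 4 + 2 * B ^ 3 * (Real.pi + 1)), ?_, fun u M δ hu hδ hM hE => ?_⟩
  · have := Real.pi_pos
    have : 0 ≤ K * (8 * B ^ 4 + 2 * B ^ 3 * (Real.pi + 1)) := by positivity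
    linarith
  set g : ℂ → ℝ := fun z => 2 * B ^ 3 * ((δ + ‖Ux u z‖ ^ 2 / δ) / 2) with hg
  have hUc : Continuous (Ux u) := (contDiff_Ux hu.1).continuous
  have hgc : Continuous g := by
    rw [hg]
    fun_prop
  have hUg : ∀ z, ‖Ux u z‖ ≤ (δ + ‖Ux u z‖ ^ 2 / δ) / 2 := by
    intro z
    have h1 : ‖Ux u z‖ ^ 2 / δ * δ = ‖Ux u z‖ ^ 2 := by field_simp
    have h2 : 0 ≤ (δ - ‖Ux u z‖) ^ 2 := sq_nonneg _
    have h3 : ‖Ux u z‖ * δ ≤ (δ + ‖Ux u z‖ ^ 2 / δ) / 2 * δ := by nlinarith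
    exact le_of_mul_le_mul_right h3 hδ
  have hb : ∫ z in ball (0 : ℂ) 1, g z ≤ B ^ 3 * ((Real.pi + 1) * δ) := by
    have i2 : IntegrableOn (fun z => ‖Ux u z‖ ^ 2) (closedBall (0 : ℂ) 1) :=
      ((hUc.norm.pow 2).continuousOn).integrableOn_compact (isCompact_closedBall _ _)
    have i2' : IntegrableOn (fun z => ‖Ux u z‖ ^ 2) (ball (0 : ℂ) 1) :=
      i2.mono_set ball_subset_closedBall
    have h1 : ∫ z in ball (0 : ℂ) 1, ‖Ux u z‖ ^ 2 ≤ δ ^ 2 := by
      refine le_trans ?_ hE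
      exact setIntegral_mono_set i2 (Eventually.of_forall fun z => by positivity)
        ball_subset_closedBall.eventuallyLE
    have i1 : IntegrableOn (fun _ : ℂ => δ) (ball (0 : ℂ) 1) := by
      exact (continuous_const.continuousOn.integrableOn_compact
        (isCompact_closedBall (0 : ℂ) 1)).mono_set ball_subset_closedBall
    have hvol : (volume : Measure ℂ).real (ball (0 : ℂ) 1) = Real.pi := by
      rw [Measure.real, Complex.volume_ball]
      simp
    calc ∫ z in ball (0 : ℂ) 1, g z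
        = 2 * B ^ 3 * ((∫ z in ball (0 : ℂ) 1, (δ + ‖Ux u z‖ ^ 2 / δ)) / 2) := by
          rw [hg]
          rw [integral_const_mul, integral_div]
      _ = 2 * B ^ 3 * ((Real.pi * δ + (∫ z in ball (0 : ℂ) 1, ‖Ux u z‖ ^ 2) / δ) / 2) := by
          rw [integral_add i1 (i2'.div_const δ), integral_div, setIntegral_const, hvol,
            smul_eq_mul]
      _ ≤ 2 * B ^ 3 * ((Real.pi * δ + δ ^ 2 / δ) / 2) := by
          gcongr
      _ = B ^ 3 * ((Real.pi + 1) * δ) := by
          field_simp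
  have key : ∀ i, ‖vv D u i 0‖ ≤ K * (8 * B ^ 4 * M ^ 2 + B ^ 3 * ((Real.pi + 1) * δ)) := by
    intro i
    refine hK (vv D u i) (8 * B ^ 4 * M ^ 2) (B ^ 3 * ((Real.pi + 1) * δ)) g
      ((contDiff_vv D hu.1 i).of_le (by simp)) hgc ?_ ?_ hb
    · intro z hz
      refine (norm_db_vv_le D hB hJ hu i z).trans ?_
      have h1 := hM z (ball_subset_closedBall hz)
      have h2 : ‖Ux u z‖ ^ 2 ≤ M ^ 2 := pow_le_pow_left₀ (norm_nonneg _) h1 2
      exact mul_le_mul_of_nonneg_left h2 (by positivity)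
    · intro z _
      refine (norm_vv_le D hB (fun x => (hJ x).1) u i z).trans ?_
      exact mul_le_mul_of_nonneg_left (hUg z) (by positivity)
  refine (norm_Ux_zero_le D u key).trans ?_
  have hpi := Real.pi_pos
  have h5 : 8 * B ^ 4 * M ^ 2 + B ^ 3 * ((Real.pi + 1) * δ) ≤
      (8 * B ^ 4 + 2 * B ^ 3 * (Real.pi + 1)) * (δ + M ^ 2) := by
    have a1 : 0 ≤ 8 * B ^ 4 * δ := by positivity
    have a2 : 0 ≤ 2 * B ^ 3 * (Real.pi + 1) * M ^ 2 := by positivity
    have a3 : 0 ≤ B ^ 3 * ((Real.pi + 1) * δ) := by positivity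
    nlinarith
  calc K * (8 * B ^ 4 * M ^ 2 + B ^ 3 * ((Real.pi + 1) * δ))
      ≤ K * ((8 * B ^ 4 + 2 * B ^ 3 * (Real.pi + 1)) * (δ + M ^ 2)) :=
        mul_le_mul_of_nonneg_left h5 hK0
    _ ≤ (1 + K * (8 * B ^ 4 + 2 * B ^ 3 * (Real.pi + 1))) * (δ + M ^ 2) := by
        have : 0 ≤ δ + M ^ 2 := by positivity
        nlinarith

end Vale.Agent.P247.H74.K2H
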