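import Vale.Agent.P247.H74.K2H.Loc

/-! # P247, package K2H: the `∂̄` computation -/

open scoped ContDiff Topology
open Set MeasureTheory Filter Metric

noncomputable section

namespace Vale.Agent.P247.H74.K2H

open P116.FK (db)

/-- `u_x` -/
def Ux (u : ℂ → R4) (z : ℂ) : R4 := fderiv ℝ u z 1

theorem contDiff_Ux {u : ℂ → R4} (hu : ContDiff ℝ ∞ u) : ContDiff ℝ ∞ (Ux u) := by
  unfold Ux
  exact (hu.fderiv_right (m := ∞) (by simp)).clm_apply contDiff_const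

theorem hasFDerivAt_JU (D : Data) {u : ℂ → R4} (hu : ContDiff ℝ ∞ u) (z : ℂ) :
    HasFDerivAt (fun z => D.J (u z) (Ux u z))
      ((D.J (u z)).comp (fderiv ℝ (Ux u) z) +
        ((fderiv ℝ D.J (u z)).comp (fderiv ℝ u z)).flip (Ux u z)) z := by
  have h1 : HasFDerivAt (fun z => D.J (u z)) ((fderiv ℝ D.J (u z)).comp (fderiv ℝ u z)) z :=
    (D.J_smooth.differentiable (by simp) (u z)).hasFDerivAt.comp z
      (hu.differentiable (by simp) z).hasFDerivAt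
  exact h1.clm_apply ((contDiff_Ux hu).differentiable (by simp) z).hasFDerivAt

theorem fderiv_Ux_I (D : Data) {u : ℂ → R4} (hu : JH D u) (z : ℂ) :
    fderiv ℝ (Ux u) z Complex.I =
      D.J (u z) (fderiv ℝ (Ux u) z 1) + (fderiv ℝ D.J (u z) (Ux u z)) (Ux u z) := by
  have hd : DifferentiableAt ℝ (fderiv ℝ u) z :=
    (hu.1.fderiv_right (m := ∞) (by simp)).differentiable (by simp) z
  have h1 : fderiv ℝ (Ux u) z Complex.I = fderiv ℝ (fderiv ℝ u) z Complex.I 1 := by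
    unfold Ux
    rw [fderiv_clm_apply hd (differentiableAt_const _)]
    simp
  have h2 : fderiv ℝ (fun z => fderiv ℝ u z Complex.I) z 1 =
      fderiv ℝ (fderiv ℝ u) z 1 Complex.I := by
    rw [fderiv_clm_apply hd (differentiableAt_const _)]
    simp
  have h3 : IsSymmSndFDerivAt ℝ u z :=
    hu.1.contDiffAt.isSymmSndFDerivAt (by simp; exact WithTop.coe_le_coe.2 le_top)
  rw [h1, h3.eq, ← h2]
  have h4 : (fun z => fderiv ℝ u z Complex.I) = fun z => D.J (u z) (Ux u z) := by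
    funext w
    exact hu.2 w
  rw [h4, (hasFDerivAt_JU D hu.1 z).fderiv]
  rfl

/-- the frame coordinates of the derivative -/
def vv (D : Data) (u : ℂ → R4) (i : Fin 4) (z : ℂ) : ℂ :=
  ell (D.J (u 0)) i (Phi D (D.J (u 0)) (u z) (Ux u z))

theorem contDiff_vv (D : Data) {u : ℂ → R4} (hu : ContDiff ℝ ∞ u) (i : Fin 4) :
    ContDiff ℝ ∞ (vv D u i) := by
  unfold vv
  exact (ell _ i).contDiff.comp
    (((contDiff_Phi D _).comp hu).clm_apply (contDiff_Ux hu))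

theorem fderiv_vv (D : Data) {u : ℂ → R4} (hu : ContDiff ℝ ∞ u) (i : Fin 4) (z h : ℂ) :
    fderiv ℝ (vv D u i) z h =
      ell (D.J (u 0)) i (Phi D (D.J (u 0)) (u z) (fderiv ℝ (Ux u) z h) +
        (1 / 2 : ℝ) • (-(D.J (u 0) ((fderiv ℝ D.J (u z) (fderiv ℝ u z h)) (Ux u z))))) := by
  have h1 : HasFDerivAt (fun z => Phi D (D.J (u 0)) (u z)) _ z :=
    (hasFDerivAt_Phi D (D.J (u 0)) (u z)).comp z (hu.differentiable (by simp) z).hasFDerivAt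
  have h2 := h1.clm_apply ((contDiff_Ux hu).differentiable (by simp) z).hasFDerivAt
  have h3 := ((ell (D.J (u 0)) i).hasFDerivAt).comp z h2
  have h4 : HasFDerivAt (vv D u i) _ z := h3
  rw [h4.fderiv]
  rfl

theorem db_vv (D : Data) {u : ℂ → R4} (hu : JH D u) (i : Fin 4) (z : ℂ) :
    db (vv D u i) z =
      ell (D.J (u 0)) i
        ((1 / 2 : ℝ) • (-(D.J (u 0) ((fderiv ℝ D.J (u z) (Ux u z)) (Ux u z))))) +
      Complex.I * ell (D.J (u 0)) i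
        ((1 / 2 : ℝ) • (-(D.J (u 0) ((fderiv ℝ D.J (u z) (D.J (u z) (Ux u z))) (Ux u z)))) +
          Phi D (D.J (u 0)) (u z) ((fderiv ℝ D.J (u z) (Ux u z)) (Ux u z))) := by
  have e1 : fderiv ℝ u z 1 = Ux u z := rfl
  have e2 : fderiv ℝ u z Complex.I = D.J (u z) (Ux u z) := hu.2 z
  rw [db, fderiv_vv D hu.1, fderiv_vv D hu.1, fderiv_Ux_I D hu, e1, e2]
  simp only [map_add]
  rw [Phi_J D _ (D.J_sq _), ell_J _ (D.J_sq _)]
  have h : ∀ a : ℂ, Complex.I * (Complex.I * a) = -a := by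
    intro a
    rw [← mul_assoc, Complex.I_mul_I]
    ring
  rw [mul_add, mul_add, h, mul_add]
  ring

theorem norm_db_vv_le (D : Data) {B : ℝ} (hB : 1 ≤ B)
    (hJ : ∀ x, ‖D.J x‖ ≤ B ∧ ‖fderiv ℝ D.J x‖ ≤ B) {u : ℂ → R4} (hu : JH D u) (i : Fin 4)
    (z : ℂ) : ‖db (vv D u i) z‖ ≤ 8 * B ^ 4 * ‖Ux u z‖ ^ 2 := by
  have hB0 : 0 ≤ B := by linarith
  set w := Ux u z with hw
  have hn : 0 ≤ ‖w‖ := norm_nonneg w
  have hDJ : ∀ a b : R4, ‖(fderiv ℝ D.J (u z) a) b‖ ≤ B * ‖a‖ * ‖b‖ := by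
    intro a b
    refine ((fderiv ℝ D.J (u z) a).le_opNorm b).trans ?_
    refine mul_le_mul_of_nonneg_right ?_ (norm_nonneg b)
    exact ((fderiv ℝ D.J (u z)).le_opNorm a).trans
      (mul_le_mul_of_nonneg_right (hJ _).2 (norm_nonneg a))
  have hJa : ∀ x a : R4, ‖D.J x a‖ ≤ B * ‖a‖ := fun x a =>
    ((D.J x).le_opNorm a).trans (mul_le_mul_of_nonneg_right (hJ x).1 (norm_nonneg a))
  have hhalf : ∀ a : R4, ‖(1 / 2 : ℝ) • (-a)‖ = 1 / 2 * ‖a‖ := by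
    intro a
    rw [norm_smul, norm_neg, Real.norm_eq_abs, abs_of_pos (by norm_num : (0 : ℝ) < 1 / 2)]
  have hE : ∀ a : R4, ‖ell (D.J (u 0)) i a‖ ≤ (1 + B) * ‖a‖ := norm_ell_le _ (hJ _).1 i
  rw [db_vv D hu i z, ← hw]
  have t1 : ‖ell (D.J (u 0)) i ((1 / 2 : ℝ) • (-(D.J (u 0) ((fderiv ℝ D.J (u z) w) w))))‖ ≤
      (1 + B) * (1 / 2 * (B * (B * ‖w‖ * ‖w‖))) := by
    refine (hE _).trans (mul_le_mul_of_nonneg_left ?_ (by linarith))
    rw [hhalf]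
    refine mul_le_mul_of_nonneg_left ?_ (by norm_num)
    exact (hJa _ _).trans (mul_le_mul_of_nonneg_left (hDJ _ _) hB0)
  have t2 : ‖ell (D.J (u 0)) i
        ((1 / 2 : ℝ) • (-(D.J (u 0) ((fderiv ℝ D.J (u z) (D.J (u z) w)) w))) +
          Phi D (D.J (u 0)) (u z) ((fderiv ℝ D.J (u z) w) w))‖ ≤
      (1 + B) * (1 / 2 * (B * (B * (B * ‖w‖) * ‖w‖)) + B ^ 2 * (B * ‖w‖ * ‖w‖)) := by
    refine (hE _).trans (mul_le_mul_of_nonneg_left ?_ (by linarith))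
    refine (norm_add_le _ _).trans (add_le_add ?_ ?_)
    · rw [hhalf]
      refine mul_le_mul_of_nonneg_left ?_ (by norm_num)
      refine (hJa _ _).trans (mul_le_mul_of_nonneg_left ?_ hB0)
      refine (hDJ _ _).trans (mul_le_mul_of_nonneg_right ?_ hn)
      exact mul_le_mul_of_nonneg_left (hJa _ _) hB0
    · exact (norm_Phi_le D hB (fun x => (hJ x).1) _ _ _).trans
        (mul_le_mul_of_nonneg_left (hDJ _ _) (by positivity))
  refine (norm_add_le _ _).trans ?_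
  rw [norm_mul, Complex.norm_I, one_mul]
  refine (add_le_add t1 t2).trans ?_
  have hB2 : B ^ 2 ≤ B ^ 4 := by nlinarith [sq_nonneg (B ^ 2 - 1), mul_self_nonneg B, pow_nonneg hB0 2, pow_nonneg hB0 3]
  have hB3 : B ^ 3 ≤ B ^ 4 := by nlinarith [pow_nonneg hB0 3]
  have h1 : (1 + B) * (1 / 2 * (B * (B * ‖w‖ * ‖w‖))) +
      (1 + B) * (1 / 2 * (B * (B * (B * ‖w‖) * ‖w‖)) + B ^ 2 * (B * ‖w‖ * ‖w‖)) =
      (B ^ 2 / 2 + B ^ 3 / 2 + 3 / 2 * B ^ 3 + 3 / 2 * B ^ 4) * ‖w‖ ^ 2 := by ring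
  rw [h1]
  refine mul_le_mul_of_nonneg_right ?_ (by positivity)
  nlinarith [pow_nonneg hB0 4]

theorem norm_vv_le (D : Data) {B : ℝ} (hB : 1 ≤ B) (hJ : ∀ x, ‖D.J x‖ ≤ B)
    (u : ℂ → R4) (i : Fin 4) (z : ℂ) : ‖vv D u i z‖ ≤ 2 * B ^ 3 * ‖Ux u z‖ := by
  have hB0 : 0 ≤ B := by linarith
  unfold vv
  refine (norm_ell_le _ (hJ _) i _).trans ?_
  have h1 := norm_Phi_le D hB hJ (u 0) (u z) (Ux u z)
  refine (mul_le_mul_of_nonneg_left h1 (by linarith)).trans ?_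
  rw [← mul_assoc]
  refine mul_le_mul_of_nonneg_right ?_ (norm_nonneg _)
  nlinarith [pow_nonneg hB0 2, pow_nonneg hB0 3]

theorem norm_Ux_zero_le (D : Data) (u : ℂ → R4) {A : ℝ} (hA : ∀ i, ‖vv D u i 0‖ ≤ A) :
    ‖Ux u 0‖ ≤ A := by
  have hA0 : 0 ≤ A := (norm_nonneg _).trans (hA 0)
  refine (pi_norm_le_iff_of_nonneg hA0).2 fun i => ?_
  have h1 : vv D u i 0 = (Ux u 0 i : ℂ) - Complex.I * (D.J (u 0) (Ux u 0) i : ℂ) := by
    rw [vv, Phi_self, ell_apply]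
  have h2 : (vv D u i 0).re = Ux u 0 i := by
    rw [h1]
    simp
  rw [Real.norm_eq_abs, ← h2]
  exact (Complex.abs_re_le_norm _).trans (hA i)

end Vale.Agent.P247.H74.K2H
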